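import Vale.Agent.P216FB.Plan
import Vale.Agent.P216DC.Lim
import Vale.Agent.P216BF.Curv

/-!
# P216SH: controlled neighbourhoods of points of the region with bounded curvature
-/

open scoped Manifold ContDiff Topology ENNReal
open Set MeasureTheory Real

set_option maxSynthPendingDepth 3

noncomputable section

namespace Vale.Agent.P216SH

open Vale.Agent.P216R Vale.Agent.P216SG Vale.Agent.P216DC Vale.Agent.P216FA Vale.Agent.P216FB

theorem sht (hE : ENV) (hW : WIN) : SHT := by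
  intro P K₁ Λ r₀ hP hCD hL hr
  obtain ⟨a, ha, K, hK, HW⟩ := hW P hP
  obtain ⟨Q, q1, q2, q3, q4⟩ : ∃ Q : ℝ, 1 ≤ Q ∧ Λ ≤ Q ∧ K₁ ≤ Q ∧ 4 / r₀ ^ 2 ≤ Q :=
    ⟨max (max 1 Λ) (max K₁ (4 / r₀ ^ 2)), by simp, by simp, by simp, by simp⟩
  have q0 : 0 < Q := by linarith
  have sq : 0 < √Q := sqrt_pos.2 q0
  have e1 : 1 / Q ≤ r₀ ^ 2 / 4 := by
    rw [div_le_iff₀ (by positivity)] at q4
    rw [div_le_div_iff₀ q0 (by norm_num)]; linarith
  have e2 : 1 / √Q ≤ r₀ / 2 := by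
    have : (1 / √Q) ^ 2 ≤ (r₀ / 2) ^ 2 := by
      rw [div_pow, sq_sqrt q0.le]; linarith
    exact abs_le_of_sq_le_sq' this (by positivity) |>.2
  have z1 : 0 < √(a / Q) := sqrt_pos.2 (by positivity)
  have z2 : 0 < √(1 / (6 * K * Q)) := sqrt_pos.2 (by positivity)
  obtain ⟨c, c0, c1, c2, c3, c4, c5⟩ : ∃ c > 0, c ≤ a / √Q ∧ c ≤ √(a / Q) ∧
      c ≤ √(1 / (6 * K * Q)) ∧ c ≤ P.κ ∧ c ≤ r₀ :=
    ⟨min (min (a / √Q) √(a / Q)) (min √(1 / (6 * K * Q)) (min P.κ r₀)),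
      by have := hP.κ0; positivity, by simp, by simp, by simp, by simp, by simp⟩
  have c2' : c ^ 2 ≤ a / Q := (le_sqrt c0.le (by positivity)).1 c2
  have c3' : 6 * (K * Q) ≤ 1 / c ^ 2 := by
    have := (le_sqrt c0.le (by positivity)).1 c3
    rw [le_div_iff₀ (by positivity)] at this ⊢
    linarith
  refine ⟨c, c0, √(a / Q), z1, ?_⟩
  intro M _ _ _ _ _ g b d T h δ t₀ B D U y fw hδ hh ht hU hy hD hR hB hS
  have r2 : 0 < r₀ ^ 2 := by positivity
  have bas := fw.bas U t₀ y D hU hy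
  have h0 : 0 < h := bas.hpos
  have hQ : h ^ 2 * Q ≤ a := by
    have := (le_sqrt h0.le (by positivity)).1 hh
    rwa [le_div_iff₀ q0] at this
  have env := hE M P.c g b d T h δ t₀ r₀ B P.κ t₀ (1 / √Q) (1 / Q) (1 / Q) D U y fw hD hr ht hU hy
    le_rfl (by linarith) (by linarith) (by linarith) (by positivity) (by linarith)
  have ctl : CtlQ (⟨g, b, d, 0, T, U, t₀, y, D, h, δ⟩ : Dat M) P 1 Q := by
    refine ⟨bas, hCD ▸ env, fun W s z hz hs => ?_⟩
    have l1 : t₀ - 1 / Q ≤ s := hz.le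
    have l2 : D W s z ≤ D U t₀ y + 1 / √Q := hz.dle
    have l3 : P.L * Q ≤ Sc (g s) z := hs
    rw [hL] at l3
    have l4 : Sl b d 0 T W s ∧ s ≤ t₀ := by
      rcases hz.prec with ⟨e, e'⟩ | ⟨e, e'⟩
      · have e₁ : s = t₀ := e
        have e₂ : W = U := e'
        exact ⟨e₁ ▸ e₂ ▸ hU, e₁.le⟩
      · have e₁ : s < t₀ := e
        have e₂ : W = postS b d s := e'
        exact ⟨e₂ ▸ sl_post ⟨by linarith, e₁.trans_le hU.mem_Icc.2⟩, e₁.le⟩
    exact hR W s z l4.1 ⟨by linarith, l4.2⟩ hz.mem (by linarith) (by linarith)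
  have pb : ParB g U y t₀ (a / √Q) (a / Q) (K * Q) :=
    HW M ⟨g, b, d, 0, T, U, t₀, y, D, h, δ⟩ Q hδ q0 hQ (hS.trans q2) ctl
  have hm : Met (g t₀) U := fw.sf.met hU
  have kq : 0 < K * Q := by positivity
  have hI : Icc (t₀ - c ^ 2) t₀ ⊆ Icc (t₀ - a / Q) t₀ := Icc_subset_Icc_left (by linarith)
  refine ⟨⟨RF.mono pb.1 hI (hm.isOpen_bl y c) (bl_mono c1), fun s hs z hz =>
    P216BF.rmB_mono (pb.2 s (hI hs) z (bl_mono c1 hz)) (by linarith)⟩, ?_⟩
  have nc := hD.nc U t₀ hU ⟨by linarith, le_rfl⟩ y hy (by linarith) (c / 2)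
    ⟨by positivity, by linarith⟩ fun z hz => by
      have r := pb.2 t₀ ⟨by have : 0 < a / Q := by positivity
                            linarith, le_rfl⟩ z (bl_mono (by linarith) hz)
      have := (abs_le.1 (P216BF.abs_sc_le3 P216BF.finrank_E3 hm (bl_subset hz) r)).2
      have e : 1 / (c / 2) ^ 2 = 4 * (1 / c ^ 2) := by field_simp; norm_num
      rw [e]; linarith
  exact (ENNReal.ofReal_le_ofReal (by gcongr)).trans nc

end Vale.Agent.P216SH
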